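import Crest.Agent.N265.Psi.Defs
import Crest.Agent.N265.Jac.Tan

/-!
# Row 265, bridge, part 12 (helper42): the cone over a point with values in a field

* `phi t : R → L[X]`, `X v ↦ t v · X`; `cI t` its kernel, a homogeneous prime;
* `cone b t h : Spc`, with ideal `cI t`;
* every relevant homogeneous prime is of the form `cI v`.
-/

set_option autoImplicit false
noncomputable section
open MvPolynomial

namespace Crest.Agent.N265.Br

open Crest.Agent.N265.Jac

variable {L : Type*} [Field L] [Algebra ℂ L]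

/-- `X v ↦ t v · X` -/
def phi (t : Var → L) : R →ₐ[ℂ] Polynomial L := aeval fun v => Polynomial.monomial 1 (t v)

/-- the homogeneous ideal of the point `t` -/
def cI (t : Var → L) : Ideal R := RingHom.ker (phi t)

instance cI_prime (t : Var → L) : (cI t).IsPrime := RingHom.ker_isPrime _

theorem mem_cI {t : Var → L} {r : R} : r ∈ cI t ↔ phi t r = 0 := Iff.rfl

theorem phi_X (t : Var → L) (v : Var) : phi t (X v) = Polynomial.monomial 1 (t v) := aeval_X _ _

theorem X_mem_cI {t : Var → L} {v : Var} : (X v : R) ∈ cI t ↔ t v = 0 := by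
  rw [mem_cI, phi_X, Polynomial.monomial_eq_zero_iff]

theorem aeval_smul_hom {A : Type*} [CommRing A] [Algebra ℂ A] (t : Var → A) (c : A) {p : R}
    {m : ℕ} (hp : p.IsHomogeneous m) : aeval (fun v => c * t v) p = c ^ m * aeval t p := by
  rw [aeval_def, aeval_def, eval₂_eq, eval₂_eq, Finset.mul_sum]
  refine Finset.sum_congr rfl fun d hd => ?_
  have h1 : ∑ i ∈ d.support, d i = m := by
    have := hp (mem_support_iff.1 hd)
    rw [Finsupp.weight_apply] at this
    simpa [Finsupp.sum] using this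
  simp only [mul_pow, Finset.prod_mul_distrib, Finset.prod_pow_eq_pow_sum, h1]
  ring

theorem phi_hom (t : Var → L) {p : R} {m : ℕ} (hp : p.IsHomogeneous m) :
    phi t p = Polynomial.monomial m (aeval t p) := by
  have h1 : (fun v => Polynomial.monomial 1 (t v)) =
      fun v => Polynomial.X * (Polynomial.CAlgHom (R := ℂ) (t v) : Polynomial L) := by
    funext v
    rw [← Polynomial.C_mul_X_pow_eq_monomial, pow_one, mul_comm]
    rfl
  rw [phi, h1, aeval_smul_hom _ _ hp, ← comp_aeval_apply, ← Polynomial.C_mul_X_pow_eq_monomial,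
    mul_comm]
  rfl

theorem mem_cI_hom {t : Var → L} {p : R} {m : ℕ} (hp : p.IsHomogeneous m) :
    p ∈ cI t ↔ aeval t p = 0 := by
  rw [mem_cI, phi_hom t hp, Polynomial.monomial_eq_zero_iff]

theorem coeff_phi (t : Var → L) (r : R) (m : ℕ) :
    (phi t r).coeff m = aeval t (homogeneousComponent m r) := by
  classical
  conv_lhs => rw [← sum_homogeneousComponent r]
  rw [map_sum, Polynomial.finsetSum_coeff,
    Finset.sum_congr rfl fun j _ => by rw [phi_hom t (homogeneousComponent_isHomogeneous j r)]]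
  simp only [Polynomial.coeff_monomial]
  rw [Finset.sum_ite_eq']
  split_ifs with h
  · rfl
  · rw [homogeneousComponent_eq_zero _ _ (by simpa using h), map_zero]

theorem mem_cI_iff {t : Var → L} {r : R} :
    r ∈ cI t ↔ ∀ m, aeval t (homogeneousComponent m r) = 0 := by
  simp only [mem_cI, Polynomial.ext_iff, coeff_phi, Polynomial.coeff_zero]


theorem eval_phi (t : Var → L) (c : L) (r : R) : (phi t r).eval c = aeval (c • t) r := by
  have : ((Polynomial.aeval c).restrictScalars ℂ).comp (phi t) = aeval (c • t) := by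
    ext v
    simp [phi_X, mul_comm]
  rw [← this]
  rfl

theorem aeval_of_mem {t : Var → L} {r : R} (h : r ∈ cI t) (c : L) : aeval (c • t) r = 0 := by
  rw [← eval_phi, mem_cI.1 h, Polynomial.eval_zero]

theorem aeval_of_mem' {t : Var → L} {r : R} (h : r ∈ cI t) : aeval t r = 0 := by
  simpa using aeval_of_mem h 1

theorem mem_cI_of_infinite {t : Var → L} {r : R} (h : {c : L | aeval (c • t) r = 0}.Infinite) :
    r ∈ cI t :=
  Polynomial.eq_zero_of_infinite_isRoot _ (by simpa only [Polynomial.IsRoot, eval_phi] using h)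

theorem infinite_ne : {c : L | c ≠ 0}.Infinite := by
  have : Infinite L := Infinite.of_injective _ (algebraMap ℂ L).injective
  exact (Set.finite_singleton (0 : L)).infinite_compl

theorem mem_cI_iff_smul {t : Var → L} {r : R} :
    r ∈ cI t ↔ ∀ c : L, c ≠ 0 → aeval (c • t) r = 0 :=
  ⟨fun h c _ => aeval_of_mem h c, fun h => mem_cI_of_infinite (infinite_ne.mono h)⟩

theorem lineI_eq (x : Pt) : lineI x = cI x := by
  ext r
  rw [mem_lineI, mem_cI_iff_smul]
  rfl

section Two

variable {L' : Type*} [Field L'] [Algebra ℂ L']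

theorem cI_le_iff {t : Var → L} {v : Var → L'} : cI t ≤ cI v ↔
    ∀ (m : ℕ) (p : R), p.IsHomogeneous m → aeval t p = 0 → aeval v p = 0 :=
  ⟨fun h _ _ hp h0 => (mem_cI_hom hp).1 (h ((mem_cI_hom hp).2 h0)), fun h r hr =>
    mem_cI_iff.2 fun m => h m _ (homogeneousComponent_isHomogeneous m r) (mem_cI_iff.1 hr m)⟩

theorem cI_le_iff' {t : Var → L} {v : Var → L'} : cI t ≤ cI v ↔ ∀ r ∈ cI t, aeval v r = 0 :=
  ⟨fun h _ hr => aeval_of_mem' (h hr), fun h => cI_le_iff.2 fun _ _ hp h0 =>
    h _ ((mem_cI_hom hp).2 h0)⟩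


end Two


/-- `t` lives on the variables of weight zero of the block `b` -/
def Blk (b : ℕ) (t : Var → L) : Prop := ∀ v, t v ≠ 0 → v.1 = b ∧ v.2.2 = 0

theorem Blk.of_le {L' : Type*} [Field L'] [Algebra ℂ L'] {b : ℕ} {t : Var → L} {v : Var → L'}
    (h : Blk b t) (hle : cI t ≤ cI v) : Blk b v := fun w hw =>
  h w fun h0 => hw (X_mem_cI.1 (hle (X_mem_cI.2 h0)))

theorem vdeg_eq {b : ℕ} {v : Var} (h : v.1 = b ∧ v.2.2 = 0) : vdeg v = eB b := by
  rw [vdeg, h.1, h.2, zero_smul, add_zero]

theorem chi_nsmul (m : ℕ) (d : D) : chi (m • d) = chi d ^ m := by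
  induction m with
  | zero => simp
  | succ m ih => rw [succ_nsmul, chi_add, ih, pow_succ]

theorem nsmul_eB_inj {b m m' : ℕ} (h : m • eB b = m' • eB b) : m = m' := by
  have := DFunLike.congr_fun h (some b)
  simpa [eB] using this

theorem Blk.aeval_gam {A : Type*} [CommRing A] [Algebra ℂ A] {b : ℕ} {t : Var → A}
    (h : ∀ v, t v ≠ 0 → v.1 = b ∧ v.2.2 = 0) (r : R) :
    aeval t (gam r) = aeval (fun v => algebraMap ℂ A (chi (eB b)) * t v) r := by
  have : (aeval t).comp gamA = aeval fun v => algebraMap ℂ A (chi (eB b)) * t v := by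
    ext v
    by_cases h0 : t v = 0
    · simp [gamA, h0]
    · simp [gamA, vdeg_eq (h v h0)]
  exact DFunLike.congr_fun this r

theorem Blk.coeff_gam {b : ℕ} {t : Var → L} (h : Blk b t) (r : R) (m : ℕ) :
    (phi t (gam r)).coeff m = algebraMap ℂ L (chi (eB b)) ^ m * (phi t r).coeff m := by
  have h1 : phi t (gam r) = phi (fun v => algebraMap ℂ L (chi (eB b)) * t v) r := by
    rw [phi, Blk.aeval_gam (b := b) fun v hv => h v (by simpa using hv), phi]
    congr 2
    funext v
    rw [Polynomial.algebraMap_apply, Polynomial.C_mul_monomial]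
  rw [h1, coeff_phi, coeff_phi, aeval_smul_hom _ _ (homogeneousComponent_isHomogeneous m r)]

theorem Blk.gam_mem {b : ℕ} {t : Var → L} (h : Blk b t) {r : R} (hr : r ∈ cI t) :
    gam r ∈ cI t := by
  rw [mem_cI] at hr ⊢
  ext m
  rw [h.coeff_gam, hr, Polynomial.coeff_zero, mul_zero]

theorem Blk.deg_eq {b : ℕ} {t : Var → L} (h : Blk b t) {d : D} {r : R} (hr : Hmg d r) {m : ℕ}
    (hm : (phi t r).coeff m ≠ 0) : d = m • eB b := by
  have h1 := h.coeff_gam r m
  rw [hr, map_mul, phi, aeval_C, ← phi, Polynomial.algebraMap_apply, Polynomial.coeff_C_mul,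
    ← map_pow, ← chi_nsmul] at h1
  exact chi_inj ((algebraMap ℂ L).injective (mul_right_cancel₀ hm h1))

/-- the degree in the block `b` -/
def dg (b : ℕ) (d : D) : ℕ := (d (some b)).toNat

theorem dg_nsmul (b m : ℕ) : dg b (m • eB b) = m := by simp [dg, eB]

/-- multihomogeneous polynomials are homogeneous modulo `cI` -/
theorem Blk.sub_comp {b : ℕ} {t : Var → L} (h : Blk b t) {d : D} {r : R} (hr : Hmg d r) :
    r - homogeneousComponent (dg b d) r ∈ cI t := by
  rw [mem_cI, map_sub, phi_hom t (homogeneousComponent_isHomogeneous _ r), ← coeff_phi, sub_eq_zero]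
  ext m
  rw [Polynomial.coeff_monomial]
  split_ifs with hm
  · rw [hm]
  · by_contra h0
    exact hm (by rw [h.deg_eq hr h0, dg_nsmul])

theorem Blk.aeval_hmg {b : ℕ} {t : Var → L} (h : Blk b t) {d : D} {r : R} (hr : Hmg d r) :
    aeval t r = aeval t (homogeneousComponent (dg b d) r) := by
  rw [← sub_eq_zero, ← map_sub]
  exact aeval_of_mem' (h.sub_comp hr)

theorem Blk.phi_hmg {b : ℕ} {t : Var → L} (h : Blk b t) {d : D} {r : R} (hr : Hmg d r) :
    phi t r = Polynomial.monomial (dg b d) (aeval t r) := by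
  have h1 := h.sub_comp hr
  rwa [mem_cI, map_sub, phi_hom t (homogeneousComponent_isHomogeneous _ r), ← h.aeval_hmg hr,
    sub_eq_zero] at h1

theorem Blk.mem_cI_hmg {b : ℕ} {t : Var → L} (h : Blk b t) {d : D} {r : R} (hr : Hmg d r) :
    r ∈ cI t ↔ aeval t r = 0 := by
  rw [mem_cI, h.phi_hmg hr, Polynomial.monomial_eq_zero_iff]


open Classical in
/-- kill all variables outside the weight zero part of the block `b` -/
def kb (b : ℕ) : R →ₐ[ℂ] R := aeval fun v => if v.1 = b ∧ v.2.2 = 0 then X v else 0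

theorem kb_hmg (b : ℕ) {p : R} {m : ℕ} (hp : p.IsHomogeneous m) : Hmg (m • eB b) (kb b p) := by
  classical
  have h1 : gamA.comp (kb b) = aeval fun v => (C (chi (eB b)) : R) *
      (if v.1 = b ∧ v.2.2 = 0 then X v else 0) := by
    refine algHom_ext fun v => ?_
    by_cases h : v.1 = b ∧ v.2.2 = 0
    · simp only [AlgHom.comp_apply, kb, aeval_X, if_pos h, gamA, vdeg_eq h]
    · simp only [AlgHom.comp_apply, kb, aeval_X, if_neg h, map_zero, mul_zero]
  have h2 : gam (kb b p) = (gamA.comp (kb b)) p := rfl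
  rw [Hmg, h2, h1, aeval_smul_hom _ _ hp, chi_nsmul, map_pow]
  rfl

theorem kb_hom (b : ℕ) {p : R} {m : ℕ} (hp : p.IsHomogeneous m) : (kb b p).IsHomogeneous m := by
  classical
  have := hp.aeval (fun v : Var => if v.1 = b ∧ v.2.2 = 0 then (X v : R) else 0) (n := 1)
    fun v => by
      split_ifs
      · exact isHomogeneous_X _ _
      · exact isHomogeneous_zero _ _ _
  rwa [one_mul] at this

theorem Blk.kb_sub {b : ℕ} {t : Var → L} (h : Blk b t) (p : R) : kb b p - p ∈ cI t := by
  classical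
  have h1 : (phi t).comp (kb b) = phi t := by
    refine algHom_ext fun v => ?_
    by_cases hv : v.1 = b ∧ v.2.2 = 0
    · simp only [AlgHom.comp_apply, kb, aeval_X, if_pos hv]
    · have : t v = 0 := by_contra fun h0 => hv (h v h0)
      simp only [AlgHom.comp_apply, kb, aeval_X, if_neg hv, map_zero, phi_X, this]
  rw [mem_cI, map_sub, sub_eq_zero]
  exact DFunLike.congr_fun h1 p

theorem Blk.aeval_kb {b : ℕ} {t : Var → L} (h : Blk b t) (p : R) :
    aeval t (kb b p) = aeval t p := by
  rw [← sub_eq_zero, ← map_sub]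
  exact aeval_of_mem' (h.kb_sub p)

/-- `t` is a nonzero vector on finitely many variables of weight zero of the block `b` -/
structure Supp (b : ℕ) (t : Var → L) : Prop where
  fin : ∃ W : Finset Var, ∀ v ∉ W, t v = 0
  blk : Blk b t
  ne : t ≠ 0

theorem Supp.finJ {b : ℕ} {t : Var → L} (h : Supp b t) : FinJ (cI t) :=
  let ⟨W, hW⟩ := h.fin; ⟨W, fun v hv => X_mem_cI.2 (hW v hv)⟩

theorem Supp.of_le {L' : Type*} [Field L'] [Algebra ℂ L'] {b : ℕ} {t : Var → L} {v : Var → L'}
    (h : Supp b t) (hle : cI t ≤ cI v) (hv : v ≠ 0) : Supp b v :=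
  ⟨let ⟨W, hW⟩ := h.fin; ⟨W, fun w hw => X_mem_cI.1 (hle (X_mem_cI.2 (hW w hw)))⟩,
    h.blk.of_le hle, hv⟩

/-- **the cone over a point with values in a field** -/
def cone (b : ℕ) (t : Var → L) (h : Supp b t) : Spc where
  B := {b}
  pts := {x | x ≠ 0 ∧ cI t ≤ cI x}
  fin := by
    classical
    obtain ⟨W, hW⟩ := h.fin
    refine ⟨W.filter fun v => v.1 = b, fun v hv => by simpa using (Finset.mem_filter.1 hv).2,
      fun x hx v hv => X_mem_cI.1 (hx.2 (X_mem_cI.2 ?_))⟩
    by_contra h0
    exact hv (Finset.mem_filter.2 ⟨by_contra fun h1 => h0 (hW v h1), (h.blk v h0).1⟩)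
  rel := by
    intro x hx c hc
    obtain ⟨v, hv⟩ := Function.ne_iff.1 hx.1
    exact ⟨v, by rw [Finset.mem_singleton.1 hc]; exact (h.blk.of_le hx.2 v hv).1, hv⟩
  closed := by
    intro x hx hr
    obtain ⟨v, -, hv⟩ := hx b (Finset.mem_singleton_self b)
    exact ⟨fun h0 => hv (congrFun h0 v), cI_le_iff'.2 fun r hr' => hr r fun y hy =>
      cI_le_iff'.1 hy.2 r hr'⟩
  inv := by
    intro x hx
    refine ⟨fun h0 => hx.1 (funext fun v => ?_), cI_le_iff'.2 fun r hr => ?_⟩
    · exact (mul_eq_zero.1 (congrFun h0 v)).resolve_left (chi_ne _)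
    · exact (eval_gam x r).symm.trans (cI_le_iff'.1 hx.2 _ (h.blk.gam_mem hr))

variable {b : ℕ} {t : Var → L} (h : Supp b t)




/-- **the ideal of the cone** -/
theorem cone_I : (cone b t h).I = cI t := by
  refine le_antisymm (fun r hr => ?_) fun r hr x hx => cI_le_iff'.1 hx.2 r hr
  obtain ⟨v, hv⟩ := Function.ne_iff.1 h.ne
  obtain ⟨k, hk⟩ := nss h.finJ (a := X v * r) fun y hy => by
    rw [map_mul, eval_X]
    by_cases h0 : y = 0
    · rw [h0, Pi.zero_apply, zero_mul]
    · rw [hr y ⟨h0, cI_le_iff'.2 fun s hs => hy hs⟩, mul_zero]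
  exact ((cI_prime t).mem_or_mem ((cI_prime t).mem_of_pow_mem k hk)).resolve_left
    fun h0 => hv (X_mem_cI.1 h0)

theorem cone_irred : (cone b t h).Irred := by
  rw [Spc.Irred, cone_I]
  exact cI_prime t

theorem cone_ttriv : (cone b t h).TTriv fun _ => 0 := fun _ hx v hv =>
  (h.blk.of_le hx.2 v hv).2


/-- points with values in a field give relevant homogeneous primes -/
theorem rpr_cI {L' : Type*} [Field L'] [Algebra ℂ L'] {v : Var → L'} (hle : cI t ≤ cI v)
    (hv : v ≠ 0) : RPr (cone b t h) (cI v) where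
  prime := cI_prime v
  stab _ hr := (h.blk.of_le hle).gam_mem hr
  le := by rw [cone_I]; exact hle
  rel := let ⟨w, hw⟩ := Function.ne_iff.1 hv; ⟨w, fun h0 => hw (X_mem_cI.1 h0)⟩

/-- **relevant homogeneous primes come from points** -/
theorem exists_of_rpr {P : Ideal R} (hP : RPr (cone b t h) P) :
    ∃ (L' : Type) (_ : Field L') (_ : Algebra ℂ L') (v : Var → L'), v ≠ 0 ∧ cI v = P := by
  have := hP.prime
  let π : R →ₐ[ℂ] FractionRing (R ⧸ P) :=
    (IsScalarTower.toAlgHom ℂ (R ⧸ P) _).comp (Ideal.Quotient.mkₐ ℂ P)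
  have hπ : ∀ r, π r = 0 ↔ r ∈ P := fun r =>
    (map_eq_zero_iff _ (IsFractionRing.injective (R ⧸ P) _)).trans Ideal.Quotient.eq_zero_iff_mem
  let v : Var → FractionRing (R ⧸ P) := fun w => π (X w)
  have hv : aeval v = π := algHom_ext fun w => aeval_X _ _
  have hle : cI t ≤ P := cone_I h ▸ hP.le
  have hb : Blk b v := fun w hw => h.blk w fun h0 => hw ((hπ _).2 (hle (X_mem_cI.2 h0)))
  refine ⟨_, inferInstance, inferInstance, v, fun h0 => ?_, le_antisymm (fun r hr => ?_) ?_⟩
  · obtain ⟨w, hw⟩ := hP.rel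
    exact hw ((hπ _).1 (congrFun h0 w))
  · rw [← hπ, ← hv]
    exact aeval_of_mem' hr
  · let p := algebraMap ℂ (FractionRing (R ⧸ P)) (chi (eB b))
    have key : ∀ (j : ℕ), ∀ r ∈ P, aeval (p ^ j • v) r = 0 := by
      intro j
      induction j with
      | zero => intro r hr; rw [pow_zero, one_smul, hv, hπ]; exact hr
      | succ j ih =>
        intro r hr
        have h1 := Blk.aeval_gam (b := b) (t := p ^ j • v)
          (fun w hw => hb w (right_ne_zero_of_mul hw)) r
        rw [ih _ (hP.stab r hr)] at h1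
        rw [h1, pow_succ', mul_smul]
        rfl
    intro r hr
    refine mem_cI_of_infinite (Set.infinite_of_injective_forall_mem (f := fun j : ℕ => p ^ j)
      (fun i j hij => ?_) fun j => key j r hr)
    simp only [p, ← map_pow, ← chi_nsmul] at hij
    exact nsmul_eB_inj (chi_inj ((algebraMap ℂ _).injective hij))

end Crest.Agent.N265.Br
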