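import Crest.Agent.N265.M.Asm2
import Crest.Agent.N265.Div.Main
import Crest.Agent.N265.Br.Cone
import Crest.Agent.N265.Jac.Jac
import Crest.Agent.R270.Dic3_327
import Crest.Agent.N265.Br.Surf
import Crest.Agent.R270.Cn7_611
import Crest.Agent.N265.Br.Ver

-- ▼ part N265/M/Asm
section

/-! # Row 265, assembly III: the model -/

set_option autoImplicit false
set_option linter.dupNamespace false
noncomputable section

namespace Crest.Agent.N265.M
open Br

theorem modelStmt : Top.ModelStmt := fun Sg => by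
  classical
  obtain ⟨C⟩ := Ch.exists_choice Sg.V
  obtain ⟨p, hp⟩ := exists_QL Sg C
  let Q : ∀ l, QL C p l (l + 1) := fun l => (hp l _ l.succ_ne_zero).some
  obtain ⟨v, hv, nest⟩ := exists_nest Sg p
  have := finite_Fm Q
  have := Fintype.ofFinite (Fm C)
  have t0 : ∀ X, Top.tO X (-0) = 1 := fun X => by rw [neg_zero, Top.tO, zero_smul, lb_zero]
  have ev : ∀ φ : Fm C, C.Top φ.1.1 φ.1.2.1 →
      φ.ν = 2 ∧ ∃ h1 h2 d P hP, Top.Eval (xx Q φ 0) C.N h1 h2 d P hP := fun φ T => by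
    refine ⟨by have := φ.2.2.2.nTop; rw [T.nTop] at this; unfold Fm.ν; omega, ?_⟩
    rw [xx_eq Q φ (n := 0) (l := φ.ν) (zero_add _)]
    exact Uni.PData.eval _ φ.2.2.2.s₁ φ.2.2.2.s₂ T
  refine ⟨{
    Φ := Fm C, ν := Fm.ν, x := xx Q, v := v, hv := hv, N := C.N, hN := C.N_pos
    k1 := fun φ n => by unfold xx; split_ifs <;> rfl
    bot1 := fun φ k hk q hq => ?_
    bot2 := fun φ k hk q hq => ?_
    up1 := fun φ i j h q hq => ?_
    up2 := fun φ i j h q hq => ?_
    glob := fun k _ => Nonempty.some ?_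
    cases := fun φ => ?_
    good := ⟨(ok_self C).fm, ev _ ?_⟩ }⟩
  · rw [xx_eq Q φ (n := (0, k)) (l := φ.ν - k) (by dsimp only; omega)]
    exact Uni.PData.bot _ hq
  · rw [xx_eq Q φ (n := (k, 0)) (l := φ.ν - k) (by dsimp only; omega)]
    exact Uni.PData.bot (Uni.PData.swap _) hq
  · rw [xx_eq Q φ (n := (i, j)) (l := φ.ν - (i + j + 1) + 1) (by dsimp only; omega),
      xx_eq Q φ (n := (i + 1, j)) (l := φ.ν - (i + j + 1)) (by dsimp only; omega)]
    exact nest _ _ (by omega) q hq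
  · rw [xx_eq Q φ (n := (i, j)) (l := φ.ν - (i + j + 1) + 1) (by dsimp only; omega),
      xx_eq Q φ (n := (i, j + 1)) (l := φ.ν - (i + j + 1)) (by dsimp only; omega),
      ← Uni.PData.piece_swap, ← Uni.PData.piece_swap]
    exact nest _ _ (by omega) q hq
  · rw [show (fun i : Ix C k => xx Q i.1.1 i.2.1) = fun i => (pd Q i.ok).piece from
      funext fun i => xx_eq Q _ i.e]
    exact exists_glob (Q k) k.succ_ne_zero _ _
  · have h := φ.2.2.2
    rcases (C.tri' (pgq Sg) h.s₁ h.s₂ h.hilb h.vd).2 with c | c | c | c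
    · refine .inl fun n hn => ?_
      rw [xx_eq Q φ (Nat.add_sub_cancel' hn)]
      have := (pd Q (φ.ok (Nat.add_sub_cancel' hn))).kill h.s₁ c
      rw [t0, mul_one] at this
      exact this
    · refine .inr (.inl fun n hn => ?_)
      rw [xx_eq Q φ (Nat.add_sub_cancel' hn)]
      exact (pd Q (φ.ok (Nat.add_sub_cancel' hn))).swap.kill h.s₂ c
    · exact .inr (.inr (.inl (by have := h.nTop; unfold Fm.ν; omega)))
    · exact .inr (.inr (.inr (ev φ c)))
  · have T := C.top_self (pgq Sg)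
    have e := (lin_rep C.b0).chi
    exact ⟨((ok_self C).fm.2.2.2.nTop), e ▸ T.chi₁, e ▸ T.chi₁,
      (sub_self (rep C.b0)).symm ▸ sub_self C.b0 ▸ T.chi₁₂,
      (sub_self (rep C.b0)).symm ▸ sub_self C.b0 ▸ T.chi₁₂,
      (sub_self (rep C.b0)).symm ▸ sub_self C.b0 ▸ T.num⟩

end Crest.Agent.N265.M
end
end

-- ▼ part N265/Br/Dic
section

/-!
# Row 265, bridge, part 14 (helper42): the dictionary between a variety and its cone

`Sy : Sys V Var` a very ample system.

* `pr Sy ξ` : the homogeneous prime of the point `ξ`; `pr_le_iff`, `exists_pr`;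
* `pt Sy x` : the closed point with homogeneous coordinates `x`;
* `surfOK`  : the cone over a surface satisfies `SurfOK`.
-/

set_option autoImplicit false
set_option linter.unusedSectionVars false

open AlgebraicGeometry CategoryTheory Order TopologicalSpace MvPolynomial
open Crest.AlgGeometry.Prelude
open Crest.Agent.R274.Br179
open Crest.Agent.R270.Dic327 (Sys exists_frac spec_of_van)

namespace Crest.Agent.N265.Br

noncomputable section

/-- points with values in a field -/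
abbrev KP {n : ℕ} (V : SmoothProjectiveVariety ℂ n) (L : Type) [Field L] [Algebra ℂ L] :=
  Crest.Agent.R270.Dic327.Pt V L

variable {n : ℕ} {V : SmoothProjectiveVariety ℂ n} {Sy : Sys V Var}
  {L : Type} [Field L] [Algebra ℂ L] {L' : Type} [Field L'] [Algebra ℂ L']

theorem aeval_div {A : Type*} [Field A] [Algebra ℂ A] (t : Var → A) (c : A) {p : R} {m : ℕ}
    (hp : p.IsHomogeneous m) : aeval (fun v => t v / c) p = aeval t p / c ^ m := by
  rw [div_eq_inv_mul, ← inv_pow, ← aeval_smul_hom _ _ hp]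
  simp only [div_eq_inv_mul]

theorem ratio_mem {x : V.X} {a : Var} (hx : x ∈ Sy.D a) {p : R} {m : ℕ}
    (hp : p.IsHomogeneous m) : aeval Sy.t p / Sy.t a ^ m ∈ loc x := by
  rw [← aeval_div _ _ hp]
  exact R270.Dic327.aeval_mem_loc _ hx.2 p

theorem ev_ratio {P : KP V L} {v : Var → L} (hv : P.Rep Sy v) {a : Var} (ha : P.x ∈ Sy.D a)
    {p : R} {m : ℕ} (hp : p.IsHomogeneous m) :
    P.ev ⟨_, ratio_mem ha hp⟩ = aeval v p / v a ^ m := by
  rw [R270.Dic327.Pt.ev_chart hv ha _ hp rfl, aeval_div _ _ hp]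

theorem van_iff {P : KP V L} {v : Var → L} (hv : P.Rep Sy v) {a : Var} (ha : P.x ∈ Sy.D a)
    {p : R} {m : ℕ} (hp : p.IsHomogeneous m) :
    aeval v p = 0 ↔ aeval Sy.t p / Sy.t a ^ m ∈ van P.x := by
  rw [← P.ev_zero ⟨_, ratio_mem ha hp⟩, ev_ratio hv ha hp, div_eq_zero_iff,
    or_iff_left (pow_ne_zero _ (hv.ne ha))]

theorem rep_le {P : KP V L} {v : Var → L} (hv : P.Rep Sy v) : cI Sy.t ≤ cI v := by
  obtain ⟨a, ha⟩ := Sy.cov P.x
  refine cI_le_iff.2 fun m p hp h => (van_iff hv ha hp).2 ?_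
  rw [h, zero_div]
  exact zero_mem_van _

theorem ev_forms {P : KP V L} {v : Var → L} (hv : P.Rep Sy v) {f : V.FnField} (hf : f ∈ loc P.x)
    {p q : R} {m : ℕ} (hp : p.IsHomogeneous m) (hq : q.IsHomogeneous m)
    (h : f * aeval Sy.t q = aeval Sy.t p) : P.ev ⟨f, hf⟩ * aeval v q = aeval v p := by
  obtain ⟨a, ha⟩ := Sy.cov P.x
  have h1 : P.ev ⟨f, hf⟩ * P.ev ⟨_, ratio_mem ha hq⟩ = P.ev ⟨_, ratio_mem ha hp⟩ := by
    rw [← map_mul]
    congr 1
    exact Subtype.ext (show f * (_ / _) = _ / _ by rw [← mul_div_assoc, h])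
  rwa [ev_ratio hv ha hp, ev_ratio hv ha hq, ← mul_div_assoc,
    div_left_inj' (pow_ne_zero _ (hv.ne ha))] at h1

theorem exists_rep (hVA : Sy.VA) {v : Var → L} (hv : v ≠ 0) (hle : cI Sy.t ≤ cI v) :
    ∃ P : KP V L, P.Rep Sy v := by
  obtain ⟨P, hP⟩ := R270.Dic327.exists_pt_of_onX (S := fun _ : Unit => Sy) () hVA
    (v := fun _ => v) (by
      rintro p ⟨⟨d, hd⟩, h0⟩
      have h1 : (rename (fun x : Σ _ : Unit, Var => x.2) p).IsHomogeneous (d ()) := by
        refine IsHomogeneous.rename_isHomogeneous fun m hm => ?_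
        have h2 := congrFun (hd hm) ()
        rw [Finsupp.weight_apply, Finsupp.sum, Finset.sum_apply] at h2
        rw [Finsupp.weight_apply, Finsupp.sum, ← h2]
        simp
      have h2 := cI_le_iff.1 hle _ _ h1 (by rw [aeval_rename]; exact h0)
      rwa [aeval_rename] at h2) fun _ => hv
  exact ⟨P, hP ()⟩

theorem hom_mul_X_pow {p : R} {r : ℕ} (hp : p.IsHomogeneous r) (a : Var) (s : ℕ) :
    (p * X a ^ s).IsHomogeneous (r + s) := by
  have := hp.mul ((isHomogeneous_X ℂ a).pow s)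
  rwa [one_mul] at this

/-- local functions are quotients of forms -/
theorem exists_forms (hVA : Sy.VA) {x : V.X} {a : Var} (hx : x ∈ Sy.D a) {f : V.FnField}
    (hf : f ∈ loc x) : ∃ (m : ℕ) (p q : R), p.IsHomogeneous m ∧ q.IsHomogeneous m ∧
      aeval Sy.t q / Sy.t a ^ m ∉ van x ∧ f * aeval Sy.t q = aeval Sy.t p := by
  obtain ⟨U, hU, hUD⟩ := hVA.aff a hx.1
  obtain ⟨g, hg, d, hd, hdv, hdf⟩ := exists_frac hU (hUD.ge hx) hf
  obtain ⟨r, p, hp, hgp⟩ := hVA.gen a hx.1 g (hUD ▸ hg)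
  obtain ⟨s, q, hq, hdq⟩ := hVA.gen a hx.1 d (hUD ▸ hd)
  have h0 := hx.1
  refine ⟨r + s, p * X a ^ s, q * X a ^ r, hom_mul_X_pow hp a s,
    add_comm s r ▸ hom_mul_X_pow hq a r, ?_, ?_⟩
  · convert hdv using 1
    rw [hdq, map_mul, map_pow, aeval_X, pow_add]
    field_simp
  · rw [eq_div_iff (pow_ne_zero _ h0)] at hgp hdq
    rw [map_mul, map_mul, map_pow, map_pow, aeval_X, ← hgp, ← hdq, ← hdf]
    ring

theorem le_iff_spec (hVA : Sy.VA) {P : KP V L} {v : Var → L} (hv : P.Rep Sy v) {Q : KP V L'}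
    {w : Var → L'} (hw : Q.Rep Sy w) : cI v ≤ cI w ↔ P.x ⤳ Q.x := by
  obtain ⟨a, ha⟩ := Sy.cov Q.x
  constructor
  · intro h
    have hP : P.x ∈ Sy.D a := (hv.mem_iff a).2 fun h0 =>
      hw.ne ha (X_mem_cI.1 (h (X_mem_cI.2 h0)))
    obtain ⟨U, hU, hUD⟩ := hVA.aff a ha.1
    refine spec_of_van hU (hUD.ge hP) (hUD.ge ha)
      fun f hf hfv => ?_
    obtain ⟨r, p, hp, rfl⟩ := hVA.gen a ha.1 f (hUD ▸ hf)
    exact (van_iff hw ha hp).1 (cI_le_iff.1 h _ _ hp ((van_iff hv hP hp).2 hfv))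
  · intro h
    refine cI_le_iff.2 fun m p hp h0 => (van_iff hw ha hp).2 ?_
    exact van_spec h (ratio_mem ha hp) ((van_iff hv (Sys.D_of_spec h ha) hp).1 h0)

/-- the tautological point -/
def ptR (ξ : V.X) : KP V (V.ResField ξ) :=
  ⟨ξ, ev (W := V.toIntegralKScheme) ξ, ev_zero (W := V.toIntegralKScheme) ξ⟩

variable (Sy) in
/-- homogeneous coordinates of `ξ` -/
def rp (ξ : V.X) : Var → V.ResField ξ := ((ptR ξ).exists_rep Sy).choose

theorem rp_spec (ξ : V.X) : (ptR ξ).Rep Sy (rp Sy ξ) := ((ptR ξ).exists_rep Sy).choose_spec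

variable (Sy) in
/-- the homogeneous prime of `ξ` -/
def pr (ξ : V.X) : Ideal R := cI (rp Sy ξ)

instance pr_prime (ξ : V.X) : (pr Sy ξ).IsPrime := cI_prime _

theorem pr_le_iff (hVA : Sy.VA) {ξ η : V.X} : pr Sy ξ ≤ pr Sy η ↔ ξ ⤳ η :=
  le_iff_spec hVA (rp_spec ξ) (rp_spec η)

theorem pr_eq (hVA : Sy.VA) {P : KP V L} {v : Var → L} (hv : P.Rep Sy v) : pr Sy P.x = cI v :=
  le_antisymm ((le_iff_spec hVA (rp_spec _) hv).2 specializes_rfl)
    ((le_iff_spec hVA hv (rp_spec _)).2 specializes_rfl)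

theorem pr_inj (hVA : Sy.VA) : Function.Injective (pr Sy) := fun _ _ h =>
  (((pr_le_iff hVA).1 h.le).antisymm ((pr_le_iff hVA).1 h.ge)).eq

theorem pr_lt_iff (hVA : Sy.VA) {ξ η : V.X} : pr Sy ξ < pr Sy η ↔ ξ ⤳ η ∧ ξ ≠ η := by
  rw [lt_iff_le_and_ne, pr_le_iff hVA, (pr_inj hVA).ne_iff]

theorem mem_pr {ξ : V.X} {a : Var} (ha : ξ ∈ Sy.D a) {p : R} {m : ℕ} (hp : p.IsHomogeneous m) :
    p ∈ pr Sy ξ ↔ aeval Sy.t p / Sy.t a ^ m ∈ van ξ :=
  (mem_cI_hom hp).trans (van_iff (rp_spec ξ) ha hp)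

theorem pr_generic : pr Sy (genericPoint V.X) = cI Sy.t := by
  refine le_antisymm (cI_le_iff.2 fun m p hp h => ?_) (rep_le (rp_spec _))
  obtain ⟨a, ha⟩ := Sy.cov (genericPoint V.X)
  by_contra h0
  exact notMem_van_generic (div_ne_zero h0 (pow_ne_zero _ ha.1))
    ((van_iff (rp_spec _) ha hp).1 h)

theorem closed_of_pt (P : KP V ℂ) : IsClosed ({P.x} : Set V.X) := by
  refine isClosed_of_const (W := V.toIntegralKScheme) fun f hf => ⟨P.ev ⟨f, hf⟩, ?_⟩
  refine (P.ev_zero (⟨f, hf⟩ - algebraMap ℂ _ (P.ev ⟨f, hf⟩))).1 ?_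
  rw [map_sub, AlgHom.commutes]
  exact sub_self _

theorem bij_of_closed {y : V.X} (hy : IsClosed ({y} : Set V.X)) :
    Function.Bijective (algebraMap ℂ (V.ResField y)) := by
  refine ⟨RingHom.injective _, fun a => ?_⟩
  obtain ⟨f, hf, rfl⟩ := exists_E (W := V.toIntegralKScheme) a
  obtain ⟨c, hc⟩ := R274.Int2_375.exists_const V hy hf
  have h1 := const_mem_loc V.toIntegralKScheme y c
  rw [← E_eq_zero (W := V.toIntegralKScheme) (sub_mem hf h1), E_sub hf h1, E_const,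
    sub_eq_zero] at hc
  exact ⟨c, hc.symm⟩

theorem exists_pt_of_closed {y : V.X} (hy : IsClosed ({y} : Set V.X)) :
    ∃ P : KP V ℂ, P.x = y := by
  let e := AlgEquiv.ofBijective (Algebra.ofId ℂ (V.ResField y)) (bij_of_closed hy)
  exact ⟨⟨y, e.symm.toAlgHom.comp (ptR y).ev, fun f =>
    (map_eq_zero_iff _ e.symm.injective).trans ((ptR y).ev_zero f)⟩, rfl⟩


open Classical in
variable (Sy) in
/-- the point with homogeneous coordinates `x` -/
def pt (x : Pt) : V.X := if h : ∃ P : KP V ℂ, P.Rep Sy x then h.choose.x else genericPoint V.X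

theorem pt_eq (hVA : Sy.VA) {P : KP V ℂ} {x : Pt} (h : P.Rep Sy x) : pt Sy x = P.x := by
  have h1 : ∃ P : KP V ℂ, P.Rep Sy x := ⟨P, h⟩
  rw [pt, dif_pos h1, R270.Dic327.pt_unique hVA h1.choose_spec h]

variable {b : ℕ} (hS : Supp b Sy.t) (hVA : Sy.VA)
include hVA

theorem exists_rep_of_mem {x : Pt} (hx : x ∈ (cone b Sy.t hS).pts) :
    ∃ P : KP V ℂ, P.Rep Sy x ∧ pt Sy x = P.x :=
  let ⟨P, hP⟩ := exists_rep hVA hx.1 hx.2; ⟨P, hP, pt_eq hVA hP⟩

theorem isClosed_pt {x : Pt} (hx : x ∈ (cone b Sy.t hS).pts) :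
    IsClosed ({pt Sy x} : Set V.X) := by
  obtain ⟨P, -, h⟩ := exists_rep_of_mem hS hVA hx
  rw [h]
  exact closed_of_pt P

theorem pr_pt {x : Pt} (hx : x ∈ (cone b Sy.t hS).pts) : pr Sy (pt Sy x) = cI x := by
  obtain ⟨P, hP, h⟩ := exists_rep_of_mem hS hVA hx
  rw [h, pr_eq hVA hP]

theorem pt_surj {y : V.X} (hy : IsClosed ({y} : Set V.X)) :
    ∃ x ∈ (cone b Sy.t hS).pts, pt Sy x = y := by
  obtain ⟨P, rfl⟩ := exists_pt_of_closed hy
  obtain ⟨x, hx⟩ := P.exists_rep Sy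
  exact ⟨x, ⟨hx.1, rep_le hx⟩, pt_eq hVA hx⟩

theorem pt_smul {x : Pt} (hx : x ∈ (cone b Sy.t hS).pts) {c : ℂ} (hc : c ≠ 0) :
    pt Sy (c • x) = pt Sy x := by
  obtain ⟨P, hP, h⟩ := exists_rep_of_mem hS hVA hx
  rw [h, pt_eq hVA (hP.smul hc)]


theorem exists_pr {P : Ideal R} (hP : RPr (cone b Sy.t hS) P) : ∃ ξ, pr Sy ξ = P := by
  obtain ⟨L, _, _, v, hv, rfl⟩ := exists_of_rpr hS hP
  obtain ⟨Q, hQ⟩ := exists_rep hVA hv (cone_I hS ▸ hP.le)
  exact ⟨Q.x, pr_eq hVA hQ⟩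

omit hVA in
theorem rpr_pr (ξ : V.X) : RPr (cone b Sy.t hS) (pr Sy ξ) :=
  rpr_cI hS (rep_le (rp_spec ξ)) (rp_spec ξ).1

omit hVA in
theorem I_eq_pr : (cone b Sy.t hS).I = pr Sy (genericPoint V.X) := by
  rw [cone_I, pr_generic]

end

/-! ### surfaces -/

noncomputable section

variable {V : SmoothProjectiveVariety ℂ 2} {Sy : Sys V Var}

theorem coheight_generic {X : Scheme.{0}} [IsIntegral X] : coheight (genericPoint X) = 0 := by
  rw [Order.coheight_eq_zero]
  exact fun v _ => genericPoint_specializes v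

theorem exists_curve {y : V.X} (hy : IsClosed ({y} : Set V.X)) :
    ∃ ξ, coheight ξ = 1 ∧ ξ ⤳ y ∧ ξ ≠ y := by
  have h1 : coheight y = ((1 : ℕ) : ℕ∞) + 1 := coheight_closed (ofSPV V) hy
  obtain ⟨-, ⟨ξ, h2, h3⟩, -⟩ := Order.coheight_eq_coe_add_one_iff.1 h1
  exact ⟨ξ, h3, h2.le, h2.ne'⟩

theorem phi_rel {L : Type*} [Field L] [Algebra ℂ L] {t : Var → L} {p q r s : R} {m e : ℕ}
    (hp : phi t p = Polynomial.monomial m (aeval t p))
    (hr : phi t r = Polynomial.monomial m (aeval t r))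
    (hq : phi t q = Polynomial.monomial e (aeval t q))
    (hs : phi t s = Polynomial.monomial e (aeval t s))
    (h : aeval t p * aeval t q = aeval t r * aeval t s) : p * q - r * s ∈ cI t := by
  rw [mem_cI, map_sub, map_mul, map_mul, hp, hq, hr, hs, Polynomial.monomial_mul_monomial,
    Polynomial.monomial_mul_monomial, h, sub_self]

variable {b : ℕ} (hS : Supp b Sy.t) (hVA : Sy.VA)
include hVA

/-- **the cone over a smooth surface** -/
theorem surfOK : SurfOK (cone b Sy.t hS) b where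
  blk := rfl
  wt0 := cone_ttriv hS
  irr := cone_irred hS
  dim Q P P' hQ hP hP' h1 h2 h3 := by
    obtain ⟨q, rfl⟩ := exists_pr hS hVA hQ
    obtain ⟨p, rfl⟩ := exists_pr hS hVA hP
    obtain ⟨p', rfl⟩ := exists_pr hS hVA hP'
    rw [I_eq_pr, pr_lt_iff hVA] at h1
    rw [pr_lt_iff hVA] at h2 h3
    have h4 := coheight_succ_le_of_specializes h1.1 h1.2
    have h5 := coheight_succ_le_of_specializes h2.1 h2.2
    have h6 := coheight_succ_le_of_specializes h3.1 h3.2
    rw [coheight_generic] at h4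
    have h7 : (0 + 1 + 1 + 1 : ℕ∞) ≤ (2 : ℕ) := ((add_le_add_left
      ((add_le_add_left h4 1).trans h5) 1).trans h6).trans (coheight_le (ofSPV V) p')
    norm_num at h7
  big x hx := by
    rw [lineI_eq, ← pr_pt hS hVA hx, I_eq_pr, pr_lt_iff hVA]
    refine ⟨genericPoint_specializes _, fun h => ?_⟩
    have h1 := coheight_closed (ofSPV V) (isClosed_pt hS hVA hx)
    rw [← h, coheight_generic] at h1
    norm_num at h1
  nrm d a a' ha ha' h0 h0' := by
    rw [cone_I] at h0 h0' ⊢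
    have h1 := (hS.blk.mem_cI_hmg ha).not.1 h0
    have h1' := (hS.blk.mem_cI_hmg ha').not.1 h0'
    by_cases hf : ∀ y : V.X, aeval Sy.t a / aeval Sy.t a' ∈ loc y
    · refine Or.inl fun x hx => ?_
      obtain ⟨P, hP, -⟩ := exists_rep_of_mem hS hVA hx
      obtain ⟨c, hc⟩ := Sy.cov P.x
      obtain ⟨m, p, q, hp, hq, hqv, hpq⟩ := exists_forms hVA hc (hf P.x)
      refine ⟨q, p, (van_iff hP hc hq).not.2 hqv, phi_rel (phi_hom _ hq) (phi_hom _ hp)
        (hS.blk.phi_hmg ha) (hS.blk.phi_hmg ha') ?_⟩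
      rw [← hpq]
      field_simp
    · simp only [mem_loc_iff, not_forall, not_le] at hf
      obtain ⟨-, ξ, -, hξ⟩ := hf
      have hf0 := div_ne_zero h1 h1'
      have hξ1 : coheight ξ = 1 := (IsWD.ord (V := V.toIntegralKScheme) hf0).codim ξ hξ.ne
      have h2 : (aeval Sy.t a / aeval Sy.t a')⁻¹ ∈ loc ξ := mem_loc_iff.2 fun z hz => by
        rw [ord_inv]
        by_cases hne : z = ξ
        · rw [hne]; omega
        · rw [wd_spec (IsWD.ord (V := V.toIntegralKScheme) hf0) hξ1 hz hne, neg_zero]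
      have h3 : (aeval Sy.t a / aeval Sy.t a')⁻¹ ∈ van ξ := by
        by_contra h
        have := ord_eq_zero_of_notMem_van specializes_rfl h2 h
        rw [ord_inv] at this
        omega
      obtain ⟨c, hc⟩ := Sy.cov ξ
      obtain ⟨m, p, q, hp, hq, hqv, hpq⟩ := exists_forms hVA hc h2
      obtain ⟨y, hy, hne⟩ := exists_spec (V := ofSPV V) hξ1
      refine Or.inr ⟨pr Sy ξ, pr Sy y, m • eB b, kb b p, kb b q, rpr_pr hS ξ, rpr_pr hS y,
        (pr_lt_iff hVA).2 ⟨hy, hne.symm⟩, kb_hmg b hp, kb_hmg b hq, ?_, ?_, ?_⟩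
      · rw [mem_pr hc (kb_hom b hp), hS.blk.aeval_kb, ← hpq, mul_div_assoc, mul_comm]
        exact mul_mem_van (ratio_mem hc hq) h3
      · rwa [mem_pr hc (kb_hom b hq), hS.blk.aeval_kb]
      · refine phi_rel (hS.blk.phi_hmg ha') (hS.blk.phi_hmg ha) (phi_hom _ (kb_hom b hq))
          (phi_hom _ (kb_hom b hp)) ?_
        rw [hS.blk.aeval_kb, hS.blk.aeval_kb, ← hpq]
        field_simp

theorem le_ldim {x : Pt} (hx : x ∈ (cone b Sy.t hS).pts) :
    ((3 : ℕ) : ℕ∞) ≤ (cone b Sy.t hS).ldim x := by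
  obtain ⟨ξ, h1, h2, h3⟩ := exists_curve (isClosed_pt hS hVA hx)
  have h4 : pr Sy (genericPoint V.X) < pr Sy ξ := (pr_lt_iff hVA).2
    ⟨genericPoint_specializes _, fun h => by rw [← h, coheight_generic] at h1; norm_num at h1⟩
  have h5 : pr Sy ξ < pr Sy (pt Sy x) := (pr_lt_iff hVA).2 ⟨h2, h3⟩
  have h6 : pr Sy (pt Sy x) < mx x := by
    rw [pr_pt hS hVA hx]
    obtain ⟨v, hv⟩ := Function.ne_iff.1 hx.1
    refine lt_of_le_not_ge (fun r hr => aeval_of_mem' hr) fun h => hv ?_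
    have := aeval_of_mem (h (Jac.X_sub_mem_mx x v)) 0
    simpa using this
  let s : LTSeries (PrimeSpectrum R) := LTSeries.mk 3
    ![⟨pr Sy (genericPoint V.X), inferInstance⟩, ⟨pr Sy ξ, inferInstance⟩,
      ⟨pr Sy (pt Sy x), inferInstance⟩, ⟨mx x, inferInstance⟩]
    (Fin.strictMono_iff_lt_succ.2 fun i => by
      fin_cases i
      exacts [h4, h5, h6])
  exact (Jac.hq_le_iff (Jac.I_le_mx hx)).1 le_rfl s (I_eq_pr hS).le le_rfl

end

end Crest.Agent.N265.Br
end

-- ▼ part N265/Br/DicR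
section

/-!
# Row 265, bridge, part 15 (helper42): curves on the cone, smoothness of the cone

* `ratEq_le` : `RatEq S` maps to `Rat V` under `pt`;
* `extS b S₀` : a finite system placed on the block `b`; `cone_sm` : the cone is smooth.
-/

set_option autoImplicit false
set_option linter.unusedSectionVars false

open AlgebraicGeometry CategoryTheory Order TopologicalSpace MvPolynomial
open Crest.AlgGeometry.Prelude
open Crest.Agent.R274.Br179
open Crest.Agent.R270.Dic327 (Sys)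
open Crest.Agent.R013.RR7_948 Crest.Agent.R013.RR11_948

namespace Crest.Agent.N265.Br

noncomputable section

section Val

variable {K : Type*} [Field K] [Algebra ℂ K]

theorem v_const_le (Q : Pl ℂ K) (c : ℂ) : Q.v (algebraMap ℂ K c) ≤ 1 := by
  by_cases hc : c = 0
  · simp [hc]
  · exact (Q.const c hc).le

theorem v_le_of_sub (Q : Pl ℂ K) {a : K} {c : ℂ} (h : Q.v (a - algebraMap ℂ K c) < 1) :
    Q.v a ≤ 1 := by
  have := Q.v.map_add_le h.le (v_const_le Q c)
  rwa [sub_add_cancel] at this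

theorem v_eq_of_sub (Q : Pl ℂ K) {a : K} {c : ℂ} (hc : c ≠ 0)
    (h : Q.v (a - algebraMap ℂ K c) < 1) : Q.v a = 1 := by
  rw [← Q.const c hc] at h ⊢
  exact Q.v.map_eq_of_sub_lt h

theorem v_aeval (Q : Pl ℂ K) {w : Var → K} {x : Pt}
    (h : ∀ v, Q.v (w v - algebraMap ℂ K (x v)) < 1) (p : R) :
    Q.v (aeval w p - algebraMap ℂ K (eval x p)) < 1 := by
  induction p using MvPolynomial.induction_on with
  | C c => simp
  | add p q hp hq =>
    rw [map_add, map_add, map_add, add_sub_add_comm]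
    exact Q.v.map_add_lt hp hq
  | mul_X p v hp =>
    have h1 : aeval w (p * X v) - algebraMap ℂ K (eval x (p * X v)) =
        (aeval w p - algebraMap ℂ K (eval x p)) * w v +
          (w v - algebraMap ℂ K (x v)) * algebraMap ℂ K (eval x p) := by
      simp only [map_mul, aeval_X, eval_X]
      ring
    rw [h1]
    refine Q.v.map_add_lt ?_ ?_ <;> rw [map_mul]
    · exact mul_lt_one_of_lt_of_le hp (v_le_of_sub Q (h v))
    · exact mul_lt_one_of_lt_of_le (h v) (v_const_le Q _)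

variable {K' : Type*} [Field K'] [Algebra ℂ K']

/-- transport of places -/
def plMap (e : K' ≃ₐ[ℂ] K) (Q : Pl ℂ K) : Pl ℂ K' where
  v := Q.v.comap (e : K' →+* K)
  const c hc := (congrArg Q.v (e.commutes c)).trans (Q.const c hc)
  surj := Q.surj.comp e.surjective

/-- transport of places -/
def plE (e : K' ≃ₐ[ℂ] K) : Pl ℂ K ≃ Pl ℂ K' where
  toFun := plMap e
  invFun := plMap e.symm
  left_inv Q := Pl.ext (Valuation.ext fun a => congrArg Q.v (e.apply_symm_apply a))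
  right_inv Q := Pl.ext (Valuation.ext fun a => congrArg Q.v (e.symm_apply_apply a))

theorem plE_v (e : K' ≃ₐ[ℂ] K) (Q : Pl ℂ K) (a : K') : (plE e Q).v a = Q.v (e a) := rfl

variable [Algebra (RatFunc ℂ) K] [IsScalarTower ℂ (RatFunc ℂ) K]
  [FiniteDimensional (RatFunc ℂ) K] [Algebra.IsSeparable (RatFunc ℂ) K]

theorem trdeg_one {K : Type} [Field K] [Algebra ℂ K] [Algebra (RatFunc ℂ) K]
    [IsScalarTower ℂ (RatFunc ℂ) K] [FiniteDimensional (RatFunc ℂ) K] :
    Algebra.trdeg ℂ K = 1 := by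
  rw [← trdeg_add_eq ℂ (RatFunc ℂ), trdeg_eq_zero (R := RatFunc ℂ), add_zero,
    ← trdeg_add_eq ℂ (Polynomial ℂ), Polynomial.trdeg_of_isDomain,
    trdeg_eq_zero_iff.2 (IsLocalization.isAlgebraic _ (nonZeroDivisors _)), add_zero]

variable [Algebra (RatFunc ℂ) K'] [IsScalarTower ℂ (RatFunc ℂ) K']
  [FiniteDimensional (RatFunc ℂ) K'] [Algebra.IsSeparable (RatFunc ℂ) K']

theorem divf_plE (e : K' ≃ₐ[ℂ] K) {f : K'} (hf : f ≠ 0) :
    divf (k := ℂ) f = (divf (k := ℂ) (e f)).mapDomain (plE e) := by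
  ext Q
  obtain ⟨Q, rfl⟩ := (plE e).surjective Q
  rw [Finsupp.mapDomain_apply (plE e).injective]
  have h1 := plE_v e Q f
  rw [v_eq hf, v_eq ((map_ne_zero e).2 hf), WithZero.exp_inj, neg_inj] at h1
  exact h1

end Val

section Pts

variable {n : ℕ} {V : SmoothProjectiveVariety ℂ n} {Sy : Sys V Var}
  {L : Type} [Field L] [Algebra ℂ L]

theorem exists_resEquiv (P : KP V L) (h : Function.Surjective P.ev) :
    ∃ e : V.ResField P.x ≃ₐ[ℂ] L, ∀ (f : V.FnField) (hf : f ∈ loc P.x),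
      e (E (W := V.toIntegralKScheme) P.x f) = P.ev ⟨f, hf⟩ := by
  have h1 := ev_surjective (W := V.toIntegralKScheme) P.x
  have h2 : RingHom.ker (ev (W := V.toIntegralKScheme) P.x).toRingHom ≤
      RingHom.ker P.ev.toRingHom := fun f hf => (P.ev_zero f).2 ((ev_zero _ f).1 hf)
  refine ⟨AlgEquiv.ofBijective (AlgHom.liftOfSurjective _ h1 P.ev h2) ⟨RingHom.injective _,
    AlgHom.liftOfSurjective_surjective _ h1 _ h2 h⟩, fun f hf => ?_⟩
  rw [E_eq hf]
  exact AlgHom.liftOfSurjective_apply _ h1 _ h2 _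

theorem ev_surj {b : ℕ} {P : KP V L} {v : Var → L} (hv : P.Rep Sy v) (hb : Blk b v)
    (h : ∀ f : L, ∃ (d : D) (a a' : R), Hmg d a ∧ Hmg d a' ∧ aeval v a' ≠ 0 ∧
      f * aeval v a' = aeval v a) : Function.Surjective P.ev := by
  intro f
  obtain ⟨d, a, a', ha, ha', h0, hf⟩ := h f
  rw [hb.aeval_hmg ha'] at h0 hf
  rw [hb.aeval_hmg ha] at hf
  obtain ⟨c, hc⟩ := Sy.cov P.x
  have h1 := homogeneousComponent_isHomogeneous (dg b d) a
  have h2 := homogeneousComponent_isHomogeneous (dg b d) a'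
  have h3 := (van_iff hv hc h2).not.1 h0
  refine ⟨⟨_, R270.Dic327.Pt.div_mem (ratio_mem hc h1) (ratio_mem hc h2) h3⟩, ?_⟩
  rw [P.ev_div (ratio_mem hc h1) (ratio_mem hc h2) h3, ev_ratio hv hc h1, ev_ratio hv hc h2,
    div_div_div_cancel_right₀ (pow_ne_zero _ (hv.ne hc)), ← hf, mul_div_cancel_right₀ _ h0]

theorem spec_of_cen (hVA : Sy.VA) {P : KP V L} {v : Var → L} (hv : P.Rep Sy v) {P' : KP V ℂ}
    {x : Pt} (hx : P'.Rep Sy x) (Q : Pl ℂ L) {c : L}
    (h : ∀ w, Q.v (c * v w - algebraMap ℂ L (x w)) < 1) :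
    ∃ hs : P.x ⤳ P'.x, ∀ f (hf : f ∈ loc P'.x), Q.v (P.ev ⟨f, loc_le hs hf⟩) ≤ 1 := by
  have key : ∀ {m : ℕ} {p : R}, p.IsHomogeneous m →
      Q.v (c ^ m * aeval v p - algebraMap ℂ L (eval x p)) < 1 := fun hp => by
    rw [← aeval_smul_hom _ _ hp]
    exact v_aeval Q h _
  have hs : P.x ⤳ P'.x := (le_iff_spec hVA hv hx).1 (cI_le_iff.2 fun m p hp h0 => by
    have h1 := key hp
    rw [h0, mul_zero, zero_sub, Valuation.map_neg] at h1
    by_contra h2
    exact h1.ne (Q.const _ h2))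
  refine ⟨hs, fun f hf => ?_⟩
  obtain ⟨a, ha⟩ := Sy.cov P'.x
  obtain ⟨m, p, q, hp, hq, hqv, hpq⟩ := exists_forms hVA ha hf
  have h1 := v_eq_of_sub Q ((van_iff hx ha hq).not.2 hqv) (key hq)
  have h2 := v_le_of_sub Q (key hp)
  rwa [← ev_forms hv (loc_le hs hf) hp hq hpq, mul_left_comm, map_mul, h1, mul_one] at h2

end Pts

section Rat

variable {V : SmoothProjectiveVariety ℂ 2} {Sy : Sys V Var}

theorem coheight_of_trdeg {ξ : V.X} (h : Algebra.trdeg ℂ (V.ResField ξ) = 1) :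
    coheight ξ = 1 := by
  have h1 : ξ ≠ genericPoint V.X := by
    rintro rfl
    obtain ⟨e, -⟩ := exists_resEquiv (V := V) ⟨genericPoint V.X,
      (locA V.toIntegralKScheme _).val, fun f => ⟨fun h0 => by
        rw [show (f : V.FnField) = 0 from h0]; exact zero_mem_van _,
        fun h0 => by_contra fun h1 => notMem_van_generic h1 h0⟩⟩
      fun f => ⟨⟨f, mem_loc_generic f⟩, rfl⟩
    rw [e.trdeg_eq, trdeg_eq V] at h
    norm_num at h
  have h2 : ¬ IsClosed ({ξ} : Set V.X) := fun hc => by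
    rw [← (AlgEquiv.ofBijective (Algebra.ofId ℂ _) (bij_of_closed hc)).trdeg_eq,
      trdeg_eq_zero] at h
    exact zero_ne_one h
  rw [R274.Int2_375.isClosed_singleton_iff, not_forall] at h2
  obtain ⟨y, hy⟩ := h2
  rw [Classical.not_imp] at hy
  have h3 := (coheight_succ_le_of_specializes hy.1 (Ne.symm hy.2)).trans
    (coheight_le (ofSPV V) y)
  refine le_antisymm ?_ (one_le_coheight_of_ne_genericPoint h1)
  exact (ENat.add_le_add_iff_right ENat.one_ne_top).1 h3

variable {b : ℕ} (hS : Supp b Sy.t) (hVA : Sy.VA)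
include hVA

theorem crv_mem (C : Crv (cone b Sy.t hS)) (c : Pl ℂ C.K → Pt) (hc : ∀ Q, C.Cen Q (c Q))
    {f : C.K} (hf : f ≠ 0) :
    ((divf (k := ℂ) f).mapDomain c).mapDomain (pt Sy) ∈ Rat (ofSPV V) := by
  by_cases h0 : C.ξ = 0
  · have : divf (k := ℂ) f = 0 := by
      ext Q
      obtain ⟨hx, a, ha⟩ := hc Q
      obtain ⟨v, hv⟩ := Function.ne_iff.1 hx.1
      have h1 := ha v
      rw [h0, Pi.zero_apply, mul_zero, zero_sub, Valuation.map_neg, Q.const _ hv] at h1
      exact absurd h1 (lt_irrefl _)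
    rw [this, Finsupp.mapDomain_zero, Finsupp.mapDomain_zero]
    exact zero_mem _
  have hle : cI Sy.t ≤ cI C.ξ := cI_le_iff'.2 fun r hr => C.hI r ((cone_I hS).ge hr)
  obtain ⟨P, hP⟩ := exists_rep hVA h0 hle
  obtain ⟨e, he⟩ := exists_resEquiv P (ev_surj hP (hS.blk.of_le hle) C.gen)
  have hξ : coheight P.x = 1 := coheight_of_trdeg (e.trdeg_eq.trans trdeg_one)
  obtain ⟨_, _, _, _⟩ := exists_ctx (V := ofSPV V) hξ
  have h1 := cyc_mem_Rat (V := ofSPV V) hξ (e.symm f)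
  rw [cyc, divf_plE e ((map_ne_zero _).2 hf), e.apply_symm_apply, ← Finsupp.mapDomain_comp] at h1
  rw [← Finsupp.mapDomain_comp]
  convert h1 using 2
  funext Q
  obtain ⟨hx, a, ha⟩ := hc Q
  obtain ⟨P', hP', h2⟩ := exists_rep_of_mem hS hVA hx
  obtain ⟨hs, h3⟩ := spec_of_cen hVA hP hP' Q ha
  refine (h2.trans ((ctr_eq_iff (V := ofSPV V)).2 ⟨hs, fun h => ?_, fun g hg => ?_⟩).symm :)
  · exact not_isClosed (V := ofSPV V) hξ (h ▸ closed_of_pt P')
  · rw [plE_v, he g (loc_le hs hg)]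
    exact h3 g hg

/-- **rational equivalence on the cone implies rational equivalence on the surface** -/
theorem ratEq_le {z : Pt →₀ ℤ} (hz : z ∈ RatEq (cone b Sy.t hS)) :
    z.mapDomain (pt Sy) ∈ Rat (ofSPV V) := by
  refine (AddSubgroup.closure_le ((Rat (ofSPV V)).comap
    (Finsupp.mapDomain.addMonoidHom (pt Sy)))).2 ?_ hz
  rintro _ (⟨x, hx, c, hc, rfl⟩ | ⟨C, c, f, hc, hf, rfl⟩)
  · rw [SetLike.mem_coe, AddSubgroup.mem_comap, map_sub]
    simp only [Finsupp.mapDomain.addMonoidHom_apply, Finsupp.mapDomain_single]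
    rw [pt_smul hS hVA hx hc, sub_self]
    exact zero_mem _
  · exact crv_mem hS hVA C c hc hf

theorem tors_of_ratEq {m : ℤ} (h : ∀ x ∈ (cone b Sy.t hS).pts, ∀ y ∈ (cone b Sy.t hS).pts,
    m • (Finsupp.single x 1 - Finsupp.single y 1 : Pt →₀ ℤ) ∈ RatEq (cone b Sy.t hS))
    {x y : V.X} (hx : IsClosed ({x} : Set V.X)) (hy : IsClosed ({y} : Set V.X)) :
    m • (cls (ofSPV V) x - cls (ofSPV V) y) = 0 := by
  obtain ⟨x, hx', rfl⟩ := pt_surj hS hVA hx
  obtain ⟨y, hy', rfl⟩ := pt_surj hS hVA hy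
  have h1 := ratEq_le hS hVA (h x hx' y hy')
  rw [← Finsupp.mapDomain.addMonoidHom_apply, map_zsmul, map_sub] at h1
  simp only [Finsupp.mapDomain.addMonoidHom_apply, Finsupp.mapDomain_single] at h1
  exact (QuotientAddGroup.eq_zero_iff _).2 h1

end Rat

section Ext

variable {n N : ℕ} {V : SmoothProjectiveVariety ℂ n}

/-- a finite system placed on the block `b` -/
def extS (b : ℕ) (S₀ : Sys V (Fin N)) : Sys V Var where
  t := tv b S₀.t
  cov x := by
    obtain ⟨a, h0, ha⟩ := S₀.cov x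
    refine ⟨vr b a, by rwa [tv_vr], fun v => ?_⟩
    rcases tv_cases b S₀.t v with h | ⟨i, rfl⟩
    · rw [h, zero_div]; exact zero_mem _
    · rw [tv_vr, tv_vr]; exact ha i

theorem extS_D (b : ℕ) (S₀ : Sys V (Fin N)) (a : Fin N) : (extS b S₀).D (vr b a) = S₀.D a := by
  ext x
  change (tv b S₀.t _ ≠ 0 ∧ ∀ v, tv b S₀.t v / tv b S₀.t _ ∈ loc x) ↔ _ ∧ _
  rw [tv_vr]
  refine and_congr_right fun _ => ⟨fun h i => by simpa using h (vr b i), fun h v => ?_⟩
  rcases tv_cases b S₀.t v with h1 | ⟨i, rfl⟩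
  · rw [h1, zero_div]; exact zero_mem _
  · rw [tv_vr]; exact h i

theorem extS_VA (b : ℕ) {S₀ : Sys V (Fin N)} (h : S₀.VA) : (extS b S₀).VA where
  aff v hv := by
    obtain ⟨a, rfl⟩ := (tv_cases b S₀.t v).resolve_left hv
    rw [extS_D]
    exact h.aff a (fun h0 => hv ((tv_vr b _ a).trans h0))
  gen v hv f hf := by
    obtain ⟨a, rfl⟩ := (tv_cases b S₀.t v).resolve_left hv
    rw [extS_D] at hf
    obtain ⟨r, p, hp, rfl⟩ := h.gen a (fun h0 => hv ((tv_vr b _ a).trans h0)) f hf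
    exact ⟨r, _, hp.rename_isHomogeneous, by
      rw [← aeval_rename_vr b, ← tv_vr b S₀.t a]; rfl⟩

theorem Sys_ne (S₀ : Sys V (Fin N)) : S₀.t ≠ 0 := fun h =>
  let ⟨a, ha, _⟩ := S₀.cov (genericPoint V.X); ha (congrFun h a)

theorem dAt_rename {σ : Type} [Fintype σ] (g : σ → Var) (x ξ : Pt) (p : MvPolynomial σ ℂ) :
    dAt x ξ (rename g p) = ∑ a, aeval (fun a => x (g a)) (pderiv a p) * ξ (g a) := by
  classical
  induction p using MvPolynomial.induction_on with
  | C c => simp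
  | add p q hp hq => simp only [map_add, dAt_add, hp, hq, add_mul, Finset.sum_add_distrib]
  | mul_X p i hp =>
    have h1 : eval x (rename g p) = aeval (fun a => x (g a)) p := aeval_rename (g := x) g p
    simp only [map_mul, rename_X, dAt_mul, dAt_X, eval_X, hp, h1, Derivation.leibniz,
      smul_eq_mul, map_add, add_mul, Finset.sum_add_distrib, aeval_X, Finset.mul_sum, mul_assoc,
      pderiv_X, Pi.single_apply, apply_ite, map_one, map_zero, ite_mul, one_mul, zero_mul, mul_zero,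
      Finset.sum_ite_eq, Finset.mem_univ, if_true]

theorem finrank_tan_le (b : ℕ) {S₀ : Sys V (Fin N)} (h : S₀.VA) {x : Pt}
    (hx : x ∈ (cone b (tv b S₀.t) (tv_supp b (Sys_ne S₀))).pts) :
    Module.finrank ℂ ((cone b (tv b S₀.t) (tv_supp b (Sys_ne S₀))).Tan x) ≤ n + 1 := by
  let g : (Σ _ : Unit, Fin N) → Var := fun a => vr b a.2
  have key : ∀ p ∈ R270.Dic327.eqs fun _ : Unit => S₀, rename g p ∈ cI (tv b S₀.t) := by
    rintro p ⟨⟨d, hd⟩, h0⟩
    have h1 : (rename g p).IsHomogeneous (d ()) := by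
      refine IsHomogeneous.rename_isHomogeneous fun m hm => ?_
      have h2 := congrFun (hd hm) ()
      rw [Finsupp.weight_apply, Finsupp.sum, Finset.sum_apply] at h2
      rw [Finsupp.weight_apply, Finsupp.sum, ← h2]
      simp
    rw [mem_cI_hom h1, aeval_rename, ← h0]
    congr 2
    exact funext fun a => tv_vr b _ _
  have hz : ∀ {y : Pt}, (∀ v, tv b S₀.t v = 0 → y v = 0) → (∀ i : Fin N, y (vr b i) = 0) →
      y = 0 := fun h1 h2 => funext fun v => (tv_cases b S₀.t v).elim (h1 v) fun ⟨i, hi⟩ => hi ▸ h2 i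
  have h1 := R270.Cn7_611.finrank_TanS (S := fun _ : Unit => S₀) (i₀ := ()) h
    (v := fun _ i => x (vr b i)) (fun p hp => by
      have := cI_le_iff'.1 hx.2 _ (key p hp)
      rwa [aeval_rename] at this) fun _ h0 => hx.1 (hz
        (fun v hv => X_mem_cI.1 (hx.2 (X_mem_cI.2 hv))) (congrFun h0))
  rw [Fintype.card_unit] at h1
  rw [← h1]
  refine LinearMap.finrank_le_finrank_of_injective (f := ((LinearMap.funLeft ℂ ℂ g).domRestrict
    _).codRestrict _ fun ξ p hp => ?_) ((injective_iff_map_eq_zero _).2 fun ξ h0 => ?_)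
  · exact (dAt_rename g x ξ p).symm.trans (ξ.2 _ ((cone_I _).ge (key p hp)))
  · refine Subtype.ext (hz (fun v hv => ?_) fun i => congrFun (congrArg Subtype.val h0) ⟨(), i⟩)
    simpa using ξ.2 _ ((cone_I _).ge (X_mem_cI.2 hv))

/-- **the cone over a smooth surface is smooth of dimension three** -/
theorem cone_sm {V : SmoothProjectiveVariety ℂ 2} (b : ℕ) {S₀ : Sys V (Fin N)} (h : S₀.VA) :
    (cone b (tv b S₀.t) (tv_supp b (Sys_ne S₀))).Sm 3 :=
  Jac.sm_of_le (fun _ hx => finrank_tan_le b h hx) fun _ hx =>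
    le_ldim (Sy := extS b S₀) _ (extS_VA b h) hx

end Ext

end

end Crest.Agent.N265.Br
end

-- ▼ part N265/Br/Fin

/-!
# Row 265, bridge, part 17 (helper42): existence of `Surf`, the final reduction

* `exists_surf` : a smooth projective surface with `q = p_g = 0` gives a `Surf`;
* `bloch_of_torsStmt`, `s0403_of_torsStmt` : S0403 follows from `TorsStmt`.
-/

set_option autoImplicit false
set_option linter.unusedSectionVars false

open AlgebraicGeometry CategoryTheory Order TopologicalSpace MvPolynomial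
open Crest.AlgGeometry.Prelude
open Crest.Agent.R274 Crest.Agent.R274.Br179 Crest.Agent.R274.Brg883
open Crest.Agent.R274.SnapB_99 (Sec)
open Crest.Agent.R270.Dic327 (Sys)

namespace Crest.Agent.N265.Br

noncomputable section

universe u

variable {k : Type u} [Field k] [IsAlgClosed k] {n : ℕ} {V : SmoothProjectiveVariety k n}
  (M : Model V)

/-- the evaluation of forms in the function field -/
abbrev ph := Br179.phi (V := V.toIntegralKScheme) M.ι

/-- normalised coordinates of the embedding -/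
def uu (j : Fin (M.N + 1)) : V.FnField := (ph M (M.Y 0))⁻¹ * tco (V := V.toIntegralKScheme) M.ι j

theorem aeval_uu {p : MvPolynomial (Fin (M.N + 1)) k} {e : ℕ} (hp : p.IsHomogeneous e) :
    aeval (uu M) p = ph M p / ph M (M.Y 0) ^ e := by
  rw [div_eq_inv_mul, ← inv_pow]
  exact eval₂_smul_hom _ _ _ hp

/-- linear forms -/
def UU : Submodule k V.FnField := Submodule.span k (Set.range (uu M))

theorem mem_UU_pow {p : MvPolynomial (Fin (M.N + 1)) k} {e : ℕ} (hp : p.IsHomogeneous e) :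
    ph M p / ph M (M.Y 0) ^ e ∈ UU M ^ e := mem_span_pow.2 ⟨p, hp, aeval_uu M hp⟩

theorem U_single (i : Fin (n + 1)) : M.U {i} = Dp (V := V.toIntegralKScheme) M.ι (M.Y i) := by
  ext x
  exact (mem_UI M.ι).trans (by simp)

theorem TT_le_UU : TT (smV M) ≤ UU M := by
  refine Submodule.span_le.2 (Set.range_subset_iff.2 fun i => ?_)
  have := mem_UU_pow M (M.hY i)
  rwa [pow_one, pow_one] at this

theorem UU_le : UU M ≤ SnapB_99.Sec (smV M).T (smV M).h := by
  refine Submodule.span_le.2 (Set.range_subset_iff.2 fun j => ?_)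
  have h := (mem_sec_nsmul (smV M) 1 (uu M j)).2 fun i => mem_reg.2 fun x hx => by
    have h1 := ratio_mem_loc M.ι M.hι (X_mem_one j) (M.hY i) (x := x) (U_single M i ▸ hx)
    convert h1 using 1
    have := M.y_ne 0
    rw [pow_one, Br179.phi_X, uu, smV_X, Model.X_t, Model.t]
    field_simp
  rwa [one_smul] at h

theorem exists_forms_deg : ∃ d0 : ℕ, ∀ d, d0 ≤ d →
    SnapB_99.Sec (smV M).T (d • (smV M).h) ≤ UU M ^ d := by
  refine sec_le_forms _ (TT_le_UU M) fun e i g hg => ?_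
  have h1 : (M.t i ^ e)⁻¹ * g ∈ reg (M.U {i} : Set V.X) := (mem_sec_nsmul _ e g).1 hg i
  rw [U_single] at h1
  obtain ⟨r, a, ha, h2⟩ := exists_of_mem_reg M.ι M.hι M.hcl (M.hY i) one_pos (M.y_ne i) h1
  rw [mul_one] at ha
  refine ⟨r, ?_⟩
  have h3 : M.t i ^ r * g = ph M a / ph M (M.Y 0) ^ r * M.t i ^ e := by
    rw [inv_mul_eq_iff_eq_mul₀ (pow_ne_zero _ (M.t_ne i))] at h2
    have := M.y_ne i
    rw [h2, Model.t, div_pow]
    field_simp
  rw [smV_X, Model.X_t, h3, pow_add]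
  exact Submodule.mul_mem_mul (mem_UU_pow M ha)
    (Submodule.pow_mem_pow _ (TT_le_UU M (Submodule.subset_span ⟨i, rfl⟩)) e)

section Sys

variable {M} {d N : ℕ} {s : Fin N → V.FnField} {p : Fin N → MvPolynomial (Fin (M.N + 1)) k}
  (hp : ∀ a, (p a).IsHomogeneous d) (hs : ∀ a, s a = ph M (p a) / ph M (M.Y 0) ^ d)
  (ht : ∀ i, M.t i ^ d ∈ Submodule.span k (Set.range s))
include hp hs

theorem s_div (a b : Fin N) : s b / s a = ph M (p b) / ph M (p a) := by
  rw [hs, hs, div_div_div_cancel_right₀ (pow_ne_zero _ (M.y_ne 0))]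

theorem s_div_t (a : Fin N) (i : Fin (n + 1)) : s a / M.t i ^ d = ph M (p a) / ph M (M.Y i ^ d) := by
  rw [hs, Model.t, div_pow, div_div_div_cancel_right₀ (pow_ne_zero _ (M.y_ne 0)), map_pow]

theorem mem_of_Dp {a : Fin N} {x : V.X} (hx : x ∈ Dp (V := V.toIntegralKScheme) M.ι (p a)) :
    s a ≠ 0 ∧ ∀ b, s b / s a ∈ loc x :=
  ⟨by rw [hs]; exact div_ne_zero (phi_ne_zero M.ι M.hι (hp a) hx) (pow_ne_zero _ (M.y_ne 0)),
    fun b => by rw [s_div hp hs]; exact ratio_mem_loc M.ι M.hι (hp b) (hp a) hx⟩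

theorem van_of_notMem {a : Fin N} {x : V.X} {i : Fin (n + 1)}
    (hi : x ∈ Dp (V := V.toIntegralKScheme) M.ι (M.Y i))
    (hx : x ∉ Dp (V := V.toIntegralKScheme) M.ι (p a)) : s a / M.t i ^ d ∈ van x := by
  have h1 : (M.Y i ^ d).IsHomogeneous d := by
    simpa using IsHomogeneous.pow (M.hY i) d
  rw [s_div_t hp hs, ratio_mem_van_iff M.ι M.hι (hp a) h1]
  · exact hx
  · exact fun h => hi ((M.ι x).isPrime.mem_of_pow_mem d h)

include ht

theorem exists_Dp (x : V.X) : ∃ a, x ∈ Dp (V := V.toIntegralKScheme) M.ι (p a) := by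
  by_contra h
  obtain ⟨i, hi⟩ := M.hcov x
  have key : ∀ f ∈ Submodule.span k (Set.range s), f / M.t i ^ d ∈ van x := by
    intro f hf
    induction hf using Submodule.span_induction with
    | mem y hy =>
      obtain ⟨a, rfl⟩ := hy
      exact van_of_notMem hp hs hi fun h1 => h ⟨a, h1⟩
    | zero => rw [zero_div]; exact zero_mem_van x
    | add _ _ _ _ h h' => rw [add_div]; exact add_mem_van h h'
    | smul c y _ h =>
      rw [Algebra.smul_def, mul_div_assoc]
      exact mul_mem_van (const_mem_loc V.toIntegralKScheme x c) h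
  have := key _ (ht i)
  rw [div_self (pow_ne_zero _ (M.t_ne i))] at this
  exact one_notMem_van x this

/-- the system given by forms of degree `d` -/
def sysD : Sys V (Fin N) where
  t := s
  cov x := let ⟨a, ha⟩ := exists_Dp hp hs ht x; ⟨a, mem_of_Dp hp hs ha⟩

theorem sysD_D (a : Fin N) :
    (sysD hp hs ht).D a = (Dp (V := V.toIntegralKScheme) M.ι (p a) : Set V.X) := by
  refine Set.ext fun x => ⟨fun hx => by_contra fun h => ?_, fun hx => mem_of_Dp hp hs hx⟩
  obtain ⟨i, hi⟩ := M.hcov x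
  have key : ∀ f ∈ Submodule.span k (Set.range s), f / s a ∈ loc x := by
    intro f hf
    induction hf using Submodule.span_induction with
    | mem y hy =>
      obtain ⟨b, rfl⟩ := hy
      exact hx.2 b
    | zero => rw [zero_div]; exact zero_mem _
    | add _ _ _ _ h h' => rw [add_div]; exact add_mem h h'
    | smul c y _ h =>
      rw [Algebra.smul_def, mul_div_assoc]
      exact mul_mem (const_mem_loc V.toIntegralKScheme x c) h
  have := mul_mem_van (key _ (ht i)) (van_of_notMem hp hs hi h)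
  rw [div_mul_div_cancel₀ (show s a ≠ 0 from hx.1), div_self (pow_ne_zero _ (M.t_ne i))] at this
  exact one_notMem_van x this

theorem sysD_VA (hd : 0 < d)
    (hg : ∀ r, UU M ^ (r * d) ≤ Submodule.span k (Set.range s) ^ r) : (sysD hp hs ht).VA where
  aff a _ := ⟨_, affine_Dp M.ι M.hcl (hp a) hd, (sysD_D hp hs ht a).symm⟩
  gen a ha f hf := by
    rw [sysD_D] at hf
    have h0 : ph M (p a) ≠ 0 := fun h => ha ((hs a).trans (by rw [h, zero_div]))
    obtain ⟨r, q, hq, rfl⟩ := exists_of_mem_reg M.ι M.hι M.hcl (hp a) hd h0 hf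
    obtain ⟨q', hq', h1⟩ := mem_span_pow.1 (hg r (mem_UU_pow M hq))
    refine ⟨r, q', hq', ?_⟩
    change _ = aeval s q' / s a ^ r
    rw [h1, hs, div_pow, ← pow_mul, mul_comm d,
      div_div_div_cancel_right₀ (pow_ne_zero _ (M.y_ne 0))]

end Sys

/-- **complete, normally generated, very ample systems without higher cohomology** -/
theorem exists_sys : ∃ (d : ℕ) (_ : 0 < d) (N : ℕ) (S₀ : Sys V (Fin N)), S₀.VA ∧
    LinearIndependent k S₀.t ∧
    (∀ m : ℕ, SnapB_99.Sec (smV M).T (m • d • (smV M).h) = Submodule.span k (Set.range S₀.t) ^ m) ∧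
    ∀ m i : ℕ, 0 < m → 0 < i → Subsingleton (((smV M).fam (m • d • (smV M).h)).H i) := by
  obtain ⟨d0, h0⟩ := exists_forms_deg M
  obtain ⟨d1, h1⟩ := sec_eq_pow (smV M)
  obtain ⟨d2, h2⟩ := Chg1_750.serre_van (smV M).hyp 0
  set d := d0 + d1 + d2 + 1 with hd
  have := Chg1_750.finite_Sec (S := (smV M).T) (d • (smV M).h)
  let b := Module.finBasis k (SnapB_99.Sec (smV M).T (d • (smV M).h))
  let s := fun a => (b a : V.FnField)
  have hsp : Submodule.span k (Set.range s) = SnapB_99.Sec (smV M).T (d • (smV M).h) := by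
    rw [show s = Submodule.subtype _ ∘ b from rfl, Set.range_comp, ← Submodule.map_span, b.span_eq,
      Submodule.map_subtype_top]
  choose p hp hs using fun a => mem_span_pow.1 (h0 d (by omega) (b a).2)
  have hs' : ∀ a, s a = ph M (p a) / ph M (M.Y 0) ^ d := fun a => (hs a).symm.trans (aeval_uu M (hp a))
  have ht : ∀ i, M.t i ^ d ∈ Submodule.span k (Set.range s) := fun i => by
    rw [hsp]
    exact Chg1_750.sec_pow (t_mem_sec (smV M) i) d
  refine ⟨d, by omega, _, sysD hp hs' ht, sysD_VA hp hs' ht (by omega) fun r => ?_,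
    b.linearIndependent.map' _ (Submodule.ker_subtype _), fun m => ?_, fun m i hm hi => ?_⟩
  · rw [hsp, ← h1 d (by omega), smul_smul]
    exact pow_le_sec (UU_le M) _
  · exact (h1 d (by omega) m).trans (congrArg (· ^ m) hsp.symm)
  · have := h2 (m * d) (le_trans (by omega) (Nat.le_mul_of_pos_left d hm)) i hi
    rwa [zero_add, ← smul_smul] at this

/-- **the surface** -/
theorem exists_surf {V : SmoothProjectiveVariety ℂ 2} (M : Model V)
    (h1 : Subsingleton (((smV M).fam 0).H 1)) (h2 : Subsingleton (((smV M).fam 0).H 2)) :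
    ∃ (Sg : Surf) (Sy : Sys V Var) (hS : Supp 0 Sy.t), Sy.VA ∧ Sg.S 0 = cone 0 Sy.t hS := by
  obtain ⟨d, hd, N, S₀, hVA, hli, hgen, hvan⟩ := exists_sys M
  refine ⟨{ F := V.FnField, V := pw (smV M) hd, N := N, t := S₀.t, ne := Sys_ne S₀, li := hli
            gen := fun m f => ?_, van := fun m i hi => ?_
            ok := fun b => surfOK (Sy := extS b S₀) _ (extS_VA b hVA)
            sm := fun b => cone_sm b hVA }, extS 0 S₀, _, extS_VA 0 hVA, rfl⟩
  · rw [← mem_span_pow, ← hgen]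
    rfl
  · rcases Nat.eq_zero_or_pos m with rfl | hm
    · rw [zero_smul]
      obtain rfl | rfl | h : i = 1 ∨ i = 2 ∨ 2 < i := by omega
      exacts [h1, h2, Ses_781.H_subsingleton_of_lt _ h]
    · exact hvan m i hm hi

theorem tors_of_torsStmt (H : TorsStmt) : Div.Tors := fun _ M h1 h2 => by
  obtain ⟨Sg, Sy, hS, hVA, h⟩ := exists_surf M h1 h2
  obtain ⟨m, hm, H⟩ := H Sg
  rw [h] at H
  exact ⟨m, hm, fun _ _ hx hy => tors_of_ratEq hS hVA H hx hy⟩

theorem bloch_of_torsStmt (H : TorsStmt) : Bloch := Div.bloch_of_tors (tors_of_torsStmt H)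

/-- **S0403 from the torsion statement** -/
theorem s0403_of_torsStmt (H : TorsStmt) (S : Scheme.{0}) [IsIntegral S] (f : S ⟶ Spec (.of ℂ))
    [SmoothOfRelativeDimension 2 f] [IsProper f]
    (hq : Subsingleton (Sheaf.H ((SheafOfModules.toSheaf S.ringCatSheaf).obj
      (SheafOfModules.unit S.ringCatSheaf)) 1 : Type))
    (hpg : Subsingleton (Sheaf.H ((SheafOfModules.toSheaf S.ringCatSheaf).obj
      (SheafOfModules.unit S.ringCatSheaf)) 2 : Type))
    (x y : S) (hx : IsClosed ({x} : Set S)) (hy : IsClosed ({y} : Set S)) :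
    ∃ (n : ℕ) (C : Fin n → Scheme.{0}) (_ : ∀ k, IsIntegral (C k))
      (_ : ∀ k, IsLocallyNoetherian (C k)) (ι : ∀ k, C k ⟶ S)
      (_ : ∀ k, IsClosedImmersion (ι k)) (g : ∀ k, (C k).functionField),
      (∀ k, Order.coheight ((ι k).base (genericPoint (C k))) = 1) ∧ (∀ k, g k ≠ 0) ∧
      ∀ p : S, IsClosed ({p} : Set S) →
        ({x} : Set S).indicator (1 : S → ℤ) p - ({y} : Set S).indicator 1 p =
          ∑ k, ∑ᶠ z ∈ (ι k).base ⁻¹' {p}, Scheme.ord (g k) z :=
  s0403_of_bloch (bloch_of_torsStmt H) S f hq hpg x y hx hy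

end

end Crest.Agent.N265.Br
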